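import Vale.Agent.P129B.Choice

/-!
# Real numbers, scalars and normed spaces of a model: the classes
-/

namespace Vale.Agent.P129B

universe v

/-- a norm with values in `R` -/
class Nm (E : Type*) (R : outParam Type*) where
  nm : E → R

export Nm (nm)

/-- The real numbers of the model. -/
class RF (N : Type v) [ZM N] (R : Type*) [Field R] [LinearOrder R] [IsStrictOrderedRing R]
    [Coded N R] : Prop extends Tot N R where
  defAdd : DefAdd N R
  defMul : DefMul N R
  defLT : DefLT N R
  lub : ∀ S : Set R, Intl N S → S.Nonempty → BddAbove S → ∃ c, IsLUB S c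

/-- Real or complex scalars over `R` (algebra only). -/
class KA (R : outParam Type*) (K : Type*) [Field R] [LinearOrder R] [IsStrictOrderedRing R]
    [Field K] [Algebra R K] [Nm K R] where
  re : K →ₗ[R] R
  im : K →ₗ[R] R
  I : K
  re_add_im : ∀ z : K, algebraMap R K (re z) + algebraMap R K (im z) * I = z
  re_one : re 1 = 1
  im_one : im 1 = 0
  re_I : re I = 0
  I_cases : I = 0 ∨ (I * I = -1 ∧ im I = 1)
  nm_nonneg' : ∀ z : K, 0 ≤ nm z
  nm_sq : ∀ z : K, nm z ^ 2 = re z ^ 2 + im z ^ 2

/-- The scalars of the model. -/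
class KF (N : Type v) [ZM N] (R : outParam Type*) (K : Type*) [Field R] [LinearOrder R]
    [IsStrictOrderedRing R] [Field K] [Algebra R K] [Nm K R] [KA R K] [Coded N R] [Coded N K] :
    Prop extends Tot N K where
  defAdd : DefAdd N K
  defMul : DefMul N K
  defRe : DefF N (fun z : K => KA.re z)
  defIm : DefF N (fun z : K => KA.im z)
  defOfR : DefF N (fun r : R => algebraMap R K r)

/-- Normed spaces (algebra only). -/
class NA (R K : outParam Type*) (E : Type*) [Field R] [LinearOrder R] [IsStrictOrderedRing R]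
    [Field K] [Nm K R] [AddCommGroup E] [Module K E] [Nm E R] : Prop where
  nm_add : ∀ x y : E, nm (x + y) ≤ nm x + nm y
  nm_smul : ∀ (c : K) (x : E), nm (c • x) = nm c * nm x
  eq_zero_of_nm : ∀ x : E, nm x = 0 → x = 0

/-- the norm is definable -/
class DefNm (N : Type v) [ZM N] (R : outParam Type*) (E : Type*) [Nm E R] [Coded N R]
    [Coded N E] : Prop where
  out : DefF N (fun x : E => nm x)

/-- The normed spaces of the model. -/
class NS (N : Type v) [ZM N] (R K : outParam Type*) (E : Type*) [Field K] [AddCommGroup E]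
    [Module K E] [Nm E R] [Coded N R] [Coded N K] [Coded N E] : Prop
    extends Tot N E where
  defAdd : DefAdd N E
  defSMul : DefSMul N K E
  defNm : DefNm N R E

attribute [instance 100] RF.toTot RF.defAdd RF.defMul RF.defLT KF.toTot KF.defAdd
  KF.defMul NS.toTot NS.defAdd NS.defSMul NS.defNm

/-- Internal Cauchy sequences converge. -/
class Cpl (N : Type v) [ZM N] (R : outParam Type*) (E : Type*) [Zero R] [LT R] [Sub E] [Nm E R]
    [Coded N E] : Prop where
  lim : ∀ s : NN N → E, Intl N s →
    (∀ ε : R, 0 < ε → ∃ n, ∀ k l, n ≤ k → n ≤ l → nm (s k - s l) < ε) →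
    ∃ x : E, ∀ ε : R, 0 < ε → ∃ n, ∀ k, n ≤ k → nm (s k - x) < ε

/-- internal linear subspaces -/
structure IsISub (N : Type v) [ZM N] (K : Type*) {E : Type*} [Field K] [AddCommGroup E]
    [Module K E] [Coded N E] (M : Set E) : Prop where
  intl : Intl N M
  zero : (0 : E) ∈ M
  add : ∀ x ∈ M, ∀ y ∈ M, x + y ∈ M
  smul : ∀ c : K, ∀ x ∈ M, c • x ∈ M

variable {N : Type v} [ZM N] {α : Type*} [Coded N α]

@[fun_prop] theorem DefF.nm {R E : Type*} [Nm E R] [Coded N R] [Coded N E] [h : DefNm N R E]
    {f : α → E} (hf : DefF N f) : DefF N (fun a => nm (f a)) := h.out.comp hf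

section R

variable {R : Type*} [Field R] [LinearOrder R] [IsStrictOrderedRing R] [Coded N R] [RF N R]

instance (priority := 100) RF.defLE : DefLE N R := defLE_of_lt
instance (priority := 100) RF.defNeg : DefNeg N R := defNeg_of_add
instance (priority := 100) RF.defSub : DefSub N R := defSub_of_neg
instance (priority := 100) RF.defInv : DefInv N R := defInv_of_mul
instance (priority := 100) RF.defDiv : DefDiv N R := defDiv_of_inv
instance (priority := 100) RF.defSMul : DefSMul N R R := ⟨by simp only [smul_eq_mul]; fun_prop⟩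

/-- greatest lower bounds -/
theorem RF.glb (S : Set R) (hS : Intl N S) (hne : S.Nonempty) (hb : BddBelow S) :
    ∃ c, IsGLB S c := by
  obtain ⟨x, hx⟩ := hne
  have h1 : Intl N {b : R | ∀ y ∈ S, b ≤ y} := intl_setOfT (by fun_prop)
  obtain ⟨c, hc⟩ := RF.lub _ h1 hb ⟨x, fun b hb => hb x hx⟩
  exact ⟨c, fun y hy => hc.2 fun b hb => hb y hy, fun b hb => hc.1 hb⟩

variable {K : Type*} [Field K] [Algebra R K] [Nm K R] [KA R K] [Coded N K] [KF N R K]

instance (priority := 100) KF.defNeg : DefNeg N K := defNeg_of_add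
instance (priority := 100) KF.defSub : DefSub N K := defSub_of_neg
instance (priority := 100) KF.defInv : DefInv N K := defInv_of_mul
instance (priority := 100) KF.defDiv : DefDiv N K := defDiv_of_inv

omit [RF N R] in
@[fun_prop] theorem DefF.re {f : α → K} (hf : DefF N f) : DefF N (fun a => KA.re (f a)) :=
  KF.defRe.comp hf

omit [RF N R] in
@[fun_prop] theorem DefF.im {f : α → K} (hf : DefF N f) : DefF N (fun a => KA.im (f a)) :=
  KF.defIm.comp hf

omit [RF N R] in
@[fun_prop] theorem DefF.ofR {f : α → R} (hf : DefF N f) :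
    DefF N (fun a => algebraMap R K (f a)) := KF.defOfR.comp hf

end R

section E

variable {R K E : Type*} [Field K] [AddCommGroup E] [Module K E] [Nm E R] [Coded N R] [Coded N K]
  [Coded N E] [NS N R K E]

instance (priority := 100) NS.defNeg : DefNeg N E := defNeg_of_add
instance (priority := 100) NS.defSub : DefSub N E := defSub_of_neg

end E

end Vale.Agent.P129B
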