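import Vale.Agent.P129BZ.Cls
import Vale.Agent.P129B.Sum

/-!
# Scalars and norms: the basic lemmas
-/

namespace Vale.Agent.P129B

universe v

variable {R : Type*} [Field R] [LinearOrder R] [IsStrictOrderedRing R]
  {K : Type*} [Field K] [Algebra R K] [Nm K R] [KA R K]

namespace KA

attribute [simp] re_one im_one re_I

theorem re_ofR_mul (r : R) (z : K) : re (algebraMap R K r * z) = r * re z := by
  rw [← Algebra.smul_def, map_smul, smul_eq_mul]

theorem im_ofR_mul (r : R) (z : K) : im (algebraMap R K r * z) = r * im z := by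
  rw [← Algebra.smul_def, map_smul, smul_eq_mul]

@[simp] theorem re_ofR (r : R) : re (algebraMap R K r) = r := by
  have := re_ofR_mul r (1 : K)
  rwa [mul_one, re_one, mul_one] at this

@[simp] theorem im_ofR (r : R) : im (algebraMap R K r) = 0 := by
  have := im_ofR_mul r (1 : K)
  rwa [mul_one, im_one, mul_zero] at this

theorem ext {z w : K} (h1 : re z = re w) (h2 : im z = im w) : z = w := by
  rw [← re_add_im z, ← re_add_im w, h1, h2]

theorem ofR_inj {r s : R} (h : algebraMap R K r = algebraMap R K s) : r = s := by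
  rw [← re_ofR (K := K) r, h, re_ofR]

theorem ofR_re {z : K} (h : im z = 0) : algebraMap R K (re z) = z := by
  have := re_add_im z
  rwa [h, map_zero, zero_mul, add_zero] at this

theorem im_mul_im_I (z : K) : im z * im (I : K) = im z := by
  have := congrArg im (re_add_im z)
  rwa [map_add, im_ofR, zero_add, im_ofR_mul] at this

theorem im_of_I_eq_zero (h : (I : K) = 0) (z : K) : im z = 0 := by
  rw [← im_mul_im_I, h, map_zero, mul_zero]

theorem mul_eq (z w : K) : z * w = algebraMap R K (re z * re w - im z * im w) +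
    algebraMap R K (re z * im w + im z * re w) * I := by
  conv_lhs => rw [← re_add_im z, ← re_add_im w]
  rcases I_cases (K := K) with h | h
  · simp only [im_of_I_eq_zero h, h, map_sub, map_mul, map_add, map_zero]; ring
  · simp only [map_sub, map_mul, map_add]
    linear_combination (algebraMap R K (im z) * algebraMap R K (im w)) * h.1

theorem mul_re (z w : K) : re (z * w) = re z * re w - im z * im w := by
  rw [mul_eq, map_add, re_ofR, re_ofR_mul, re_I, mul_zero, add_zero]

theorem mul_im (z w : K) : im (z * w) = re z * im w + im z * re w := by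
  rw [mul_eq, map_add, im_ofR, im_ofR_mul, zero_add]
  linear_combination re z * im_mul_im_I w + re w * im_mul_im_I z

theorem re_I_mul (z : K) : re (I * z) = -im z := by
  rw [mul_re, re_I, zero_mul, zero_sub, mul_comm, im_mul_im_I]

theorem nm_mul (z w : K) : nm (z * w) = nm z * nm w := by
  refine (sq_eq_sq₀ (nm_nonneg' _) (mul_nonneg (nm_nonneg' _) (nm_nonneg' _))).1 ?_
  rw [mul_pow, nm_sq, nm_sq, nm_sq, mul_re, mul_im]; ring

theorem abs_re_le_nm (z : K) : |re z| ≤ nm z :=
  abs_le_of_sq_le_sq (by rw [nm_sq]; nlinarith [sq_nonneg (im z)]) (nm_nonneg' z)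

theorem abs_im_le_nm (z : K) : |im z| ≤ nm z :=
  abs_le_of_sq_le_sq (by rw [nm_sq]; nlinarith [sq_nonneg (re z)]) (nm_nonneg' z)

theorem re_le_nm (z : K) : re z ≤ nm z := (le_abs_self _).trans (abs_re_le_nm z)

theorem im_le_nm (z : K) : im z ≤ nm z := (le_abs_self _).trans (abs_im_le_nm z)

theorem nm_le_abs_add_abs (z : K) : nm z ≤ |re z| + |im z| := by
  refine (le_abs_self _).trans (abs_le_of_sq_le_sq ?_ (by positivity))
  rw [nm_sq, add_sq, sq_abs, sq_abs]
  have : 0 ≤ 2 * |re z| * |im z| := by positivity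
  linarith

theorem inner_le (z w : K) : re z * re w + im z * im w ≤ nm z * nm w := by
  refine (le_abs_self _).trans (abs_le_of_sq_le_sq ?_ (mul_nonneg (nm_nonneg' _) (nm_nonneg' _)))
  rw [mul_pow, nm_sq, nm_sq]
  nlinarith [sq_nonneg (re z * im w - im z * re w)]

@[simp] theorem nm_ofR (r : R) : nm (algebraMap R K r) = |r| := by
  refine (sq_eq_sq₀ (nm_nonneg' _) (abs_nonneg _)).1 ?_
  rw [nm_sq, re_ofR, im_ofR, sq_abs]; ring

theorem nm_ofR_of_nonneg {r : R} (h : 0 ≤ r) : nm (algebraMap R K r) = r := by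
  rw [nm_ofR, abs_of_nonneg h]

@[simp] theorem nm_one : nm (1 : K) = 1 := by
  rw [← map_one (algebraMap R K), nm_ofR, abs_one]

theorem nm_I_le : nm (I : K) ≤ 1 := by
  refine (nm_le_abs_add_abs _).trans ?_
  rcases I_cases (K := K) with h | h
  · simp [h]
  · simp [h.2]

instance (priority := 100) toNA : NA R K K where
  nm_add z w := by
    refine (le_abs_self _).trans (abs_le_of_sq_le_sq ?_ (add_nonneg (nm_nonneg' _) (nm_nonneg' _)))
    rw [add_sq, nm_sq, nm_sq, nm_sq, map_add, map_add]
    nlinarith [inner_le z w]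
  nm_smul := nm_mul
  eq_zero_of_nm z h := by
    have h1 := abs_re_le_nm z
    have h2 := abs_im_le_nm z
    rw [h, abs_nonpos_iff] at h1 h2
    exact ext (by rw [h1, map_zero]) (by rw [h2, map_zero])

/-- A scalar whose norm is at most its real part is real. -/
theorem ofR_re_of_le {z : K} (h : nm z ≤ re z) : algebraMap R K (re z) = z := by
  refine ofR_re (pow_eq_zero_iff (two_ne_zero) |>.1 ?_)
  have h1 := nm_sq z
  rw [le_antisymm h (re_le_nm z)] at h1
  linarith

/-- complex conjugation -/
def conj : K →+* K where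
  toFun z := algebraMap R K (re z) - algebraMap R K (im z) * I
  map_one' := by simp
  map_zero' := by simp
  map_add' z w := by simp only [map_add]; ring
  map_mul' z w := by
    rw [mul_re, mul_im]
    rcases I_cases (K := K) with h | h
    · simp only [im_of_I_eq_zero h, h, map_sub, map_mul, map_add, map_zero]; ring
    · simp only [map_sub, map_mul, map_add]
      linear_combination (-algebraMap R K (im z) * algebraMap R K (im w)) * h.1

theorem conj_def (z : K) : conj z = algebraMap R K (re z) - algebraMap R K (im z) * I := rfl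

@[simp] theorem re_conj (z : K) : re (conj z) = re z := by
  rw [conj_def, map_sub, re_ofR, re_ofR_mul, re_I, mul_zero, sub_zero]

@[simp] theorem im_conj (z : K) : im (conj z) = -im z := by
  rw [conj_def, map_sub, im_ofR, im_ofR_mul, im_mul_im_I, zero_sub]

@[simp] theorem conj_conj (z : K) : conj (conj z) = z := ext (by simp) (by simp)

@[simp] theorem conj_ofR (r : R) : conj (algebraMap R K r) = algebraMap R K r :=
  ext (by simp) (by simp)

@[simp] theorem nm_conj (z : K) : nm (conj z) = nm z := by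
  refine (sq_eq_sq₀ (nm_nonneg' _) (nm_nonneg' _)).1 ?_
  rw [nm_sq, nm_sq, re_conj, im_conj, neg_sq]

theorem conj_mul_self (z : K) : conj z * z = algebraMap R K (nm z ^ 2) :=
  ext (by rw [mul_re, re_ofR, nm_sq, re_conj, im_conj]; ring)
    (by rw [mul_im, im_ofR, re_conj, im_conj]; ring)

theorem mul_conj_self (z : K) : z * conj z = algebraMap R K (nm z ^ 2) := by
  rw [mul_comm, conj_mul_self]

theorem re_conj_mul (z w : K) : re (conj z * w) = re z * re w + im z * im w := by
  rw [mul_re, re_conj, im_conj]; ring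

end KA

/-! ### Norms -/

/-- Normed groups. -/
class NG (R : outParam Type*) (E : Type*) [Field R] [LinearOrder R] [IsStrictOrderedRing R]
    [AddCommGroup E] [Nm E R] : Prop where
  nm_add : ∀ x y : E, nm (x + y) ≤ nm x + nm y
  nm_neg : ∀ x : E, nm (-x) = nm x
  nm_zero : nm (0 : E) = 0
  eq_zero_of_nm : ∀ x : E, nm x = 0 → x = 0

section Norm

variable {E : Type*} [AddCommGroup E] [Nm E R]

section

variable [Module K E] [NA R K E]

omit [Algebra R K] [KA R K] in
theorem nm_smul (c : K) (x : E) : nm (c • x) = nm c * nm x := NA.nm_smul c x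

theorem nm_ofR_smul (r : R) (x : E) : nm (algebraMap R K r • x) = |r| * nm x := by
  rw [nm_smul, KA.nm_ofR]

theorem nm_ofR_smul_of_nonneg {r : R} (h : 0 ≤ r) (x : E) :
    nm (algebraMap R K r • x) = r * nm x := by rw [nm_ofR_smul, abs_of_nonneg h]

instance (priority := 100) NA.toNG : NG R E where
  nm_add := NA.nm_add
  nm_neg x := by
    have := nm_ofR_smul (K := K) (-1) x
    rwa [map_neg, map_one, neg_one_smul, abs_neg, abs_one, one_mul] at this
  nm_zero := by
    have := nm_ofR_smul (K := K) 0 (0 : E)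
    rwa [smul_zero, abs_zero, zero_mul] at this
  eq_zero_of_nm := NA.eq_zero_of_nm

end

variable [NG R E]

theorem nm_add_le (x y : E) : nm (x + y) ≤ nm x + nm y := NG.nm_add x y

@[simp] theorem nm_zero : nm (0 : E) = 0 := NG.nm_zero

@[simp] theorem nm_neg (x : E) : nm (-x) = nm x := NG.nm_neg x

theorem nm_nonneg (x : E) : 0 ≤ nm x := by
  have := nm_add_le x (-x)
  rw [add_neg_cancel, nm_zero, nm_neg] at this
  linarith

@[simp] theorem nm_eq_zero {x : E} : nm x = 0 ↔ x = 0 :=
  ⟨NG.eq_zero_of_nm x, fun h => by rw [h, nm_zero]⟩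

theorem nm_le_zero_iff {x : E} : nm x ≤ 0 ↔ x = 0 :=
  ⟨fun h => nm_eq_zero.1 (le_antisymm h (nm_nonneg x)), fun h => by rw [h, nm_zero]⟩

theorem nm_pos_iff {x : E} : 0 < nm x ↔ x ≠ 0 := by
  rw [← not_le, nm_le_zero_iff]

theorem nm_sub_rev (x y : E) : nm (x - y) = nm (y - x) := by rw [← nm_neg, neg_sub]

theorem nm_sub_le (x y : E) : nm (x - y) ≤ nm x + nm y := by
  rw [sub_eq_add_neg, ← nm_neg y]; exact nm_add_le _ _

theorem nm_triangle (x y z : E) : nm (x - z) ≤ nm (x - y) + nm (y - z) := by
  have := nm_add_le (x - y) (y - z)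
  rwa [sub_add_sub_cancel] at this

theorem nm_le_add_sub (x y : E) : nm x ≤ nm y + nm (x - y) := by
  have := nm_add_le y (x - y)
  rwa [add_sub_cancel] at this

theorem nm_sub_nm_le (x y : E) : nm x - nm y ≤ nm (x - y) := by
  linarith [nm_le_add_sub x y]

theorem abs_nm_sub_nm_le (x y : E) : |nm x - nm y| ≤ nm (x - y) :=
  abs_sub_le_iff.2 ⟨nm_sub_nm_le x y, nm_sub_rev x y ▸ nm_sub_nm_le y x⟩

theorem eq_of_forall_nm_sub_le {x y : E} (h : ∀ ε : R, 0 < ε → nm (x - y) ≤ ε) : x = y :=
  sub_eq_zero.1 (nm_le_zero_iff.1 (le_of_forall_pos_le_add fun ε hε => by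
    rw [zero_add]; exact h ε hε))

omit [NG R E] in
/-- normalisation -/
theorem nm_normalize [Module K E] [NA R K E] {x : E} (h : x ≠ 0) :
    nm (algebraMap R K (nm x)⁻¹ • x) = 1 := by
  rw [nm_ofR_smul_of_nonneg (inv_nonneg.2 (nm_nonneg x)), inv_mul_cancel₀ (nm_pos_iff.2 h).ne']

end Norm

namespace KA

@[simp] theorem nm_inv (z : K) : nm z⁻¹ = (nm z)⁻¹ := by
  rcases eq_or_ne z 0 with rfl | h
  · rw [inv_zero, nm_zero, inv_zero]
  · refine eq_inv_of_mul_eq_one_left ?_
    rw [← nm_mul, inv_mul_cancel₀ h, nm_one]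

theorem nm_div (z w : K) : nm (z / w) = nm z / nm w := by
  rw [div_eq_mul_inv, nm_mul, nm_inv, div_eq_mul_inv]

theorem nm_pow (z : K) (n : ℕ) : nm (z ^ n) = nm z ^ n := by
  induction n with
  | zero => rw [pow_zero, pow_zero, nm_one]
  | succ n ih => rw [pow_succ, pow_succ, nm_mul, ih]

open Classical in
/-- the rotation of a scalar to the nonnegative reals -/
noncomputable def rot (z : K) : K := if z = 0 then 1 else algebraMap R K (nm z) / z

theorem nm_rot (z : K) : nm (rot z) = 1 := by
  unfold rot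
  split_ifs with h
  · exact nm_one
  · rw [nm_div, nm_ofR_of_nonneg (nm_nonneg z), div_self (nm_pos_iff.2 h).ne']

theorem rot_mul (z : K) : rot z * z = algebraMap R K (nm z) := by
  unfold rot
  split_ifs with h
  · rw [h, mul_zero, nm_zero, map_zero]
  · rw [div_mul_cancel₀ _ h]

theorem exists_rot (z : K) : ∃ c : K, nm c = 1 ∧ c * z = algebraMap R K (nm z) :=
  ⟨rot z, nm_rot z, rot_mul z⟩

end KA

/-! ### The real numbers as scalars -/

instance (priority := 50) nmReal : Nm R R := ⟨fun x => |x|⟩

omit [IsStrictOrderedRing R] in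
@[simp] theorem nm_real (x : R) : nm x = |x| := rfl

instance (priority := 50) kaReal : KA R R where
  re := LinearMap.id
  im := 0
  I := 0
  re_add_im z := by simp
  re_one := rfl
  im_one := rfl
  re_I := rfl
  I_cases := Or.inl rfl
  nm_nonneg' z := abs_nonneg z
  nm_sq z := by simp

/-! ### Definability -/

variable {N : Type v} [ZM N] {α : Type*} [Coded N α] [Coded N R] [RF N R] [Coded N K] [KF N R K]

instance (priority := 100) KF.toNS : NS N R K K where
  defAdd := inferInstance
  defSMul := ⟨by simp only [smul_eq_mul]; fun_prop⟩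
  defNm := ⟨defF_of_rel
    (R := fun (z : K) (r : R) => 0 ≤ r ∧ r ^ 2 = KA.re z ^ 2 + KA.im z ^ 2)
    (fun _ _ => inferInstance) (by fun_prop) fun z r _ _ =>
      ⟨fun h => (sq_eq_sq₀ (KA.nm_nonneg' z) h.1).1 ((KA.nm_sq z).trans h.2.symm),
        fun h => h ▸ ⟨KA.nm_nonneg' z, KA.nm_sq z⟩⟩⟩

instance (priority := 50) kfReal : KF N R R where
  defAdd := inferInstance
  defMul := inferInstance
  defRe := DefF.id
  defIm := DefF.const 0
  defOfR := DefF.id

omit [RF N R] in
@[fun_prop] theorem DefF.conj {f : α → K} (hf : DefF N f) : DefF N (fun a => KA.conj (f a)) := by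
  simp only [KA.conj_def]; fun_prop

@[fun_prop] theorem DefF.rot {f : α → K} (hf : DefF N f) : DefF N (fun a => KA.rot (f a)) := by
  unfold KA.rot; fun_prop

variable {E : Type*} [AddCommGroup E] [Nm E R] [NG R E] [Coded N E] [DefAdd N E] [DefZero N E]
  [DefNm N R E]

theorem nm_isum_le {f : NN N → E} (hf : DefF N f) (n : NN N) :
    nm (isum f n) ≤ isum (fun i => nm (f i)) n :=
  NN.ind (P := fun n => nm (isum f n) ≤ isum (fun i => nm (f i)) n) (by fun_prop) (by simp)
    (fun m ih => by
      rw [isum_succ hf, isum_succ (by fun_prop)]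
      exact (nm_add_le _ _).trans (add_le_add ih le_rfl)) n

end Vale.Agent.P129B
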