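import Vale.Agent.P129BZ.Scal

/-!
# The dual space inside a model
-/

set_option linter.unusedSectionVars false

namespace Vale.Agent.P129B

universe v

/-- the internal bounded functionals -/
def Dual (N : Type v) [ZM N] (K E : Type*) {R : Type*} [Mul R] [LE R] [Field K] [Nm K R]
    [AddCommGroup E] [Module K E] [Nm E R] [Coded N K] [Coded N E] : Type _ :=
  {f : E →ₗ[K] K // DefF N (fun x => f x) ∧ ∃ C : R, ∀ x, nm (f x) ≤ C * nm x}

variable {N : Type v} [ZM N] {α : Type*} [Coded N α]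
  {R : Type*} [Field R] [LinearOrder R] [IsStrictOrderedRing R] [Coded N R] [RF N R]
  {K : Type*} [Field K] [Algebra R K] [Nm K R] [KA R K] [Coded N K] [KF N R K]
  {E : Type*} [AddCommGroup E] [Module K E] [Nm E R] [NA R K E] [Coded N E] [NS N R K E]

namespace Dual

section Basic

omit [IsStrictOrderedRing R] [Coded N R] [RF N R] [Algebra R K] [KA R K] [KF N R K] [NA R K E]
  [NS N R K E]

instance : FunLike (Dual N K E) E K where
  coe u := u.1
  coe_injective _ _ h := Subtype.ext (DFunLike.coe_injective h)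

instance : LinearMapClass (Dual N K E) K E K where
  map_add u := u.1.map_add
  map_smulₛₗ u := u.1.map_smul

@[ext] theorem ext {u w : Dual N K E} (h : ∀ x, u x = w x) : u = w := DFunLike.ext _ _ h

/-- the underlying linear map -/
def lin (u : Dual N K E) : E →ₗ[K] K := u.1

@[simp] theorem lin_apply (u : Dual N K E) (x : E) : u.lin x = u x := rfl

theorem defF (u : Dual N K E) : DefF N (fun x => u x) := u.2.1

theorem bdd (u : Dual N K E) : ∃ C : R, ∀ x, nm (u x) ≤ C * nm x := u.2.2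

/-- a functional from a definable bounded linear map -/
def ofLin (f : E →ₗ[K] K) (hf : DefF N (fun x => f x)) (C : R)
    (h : ∀ x, nm (f x) ≤ C * nm x) : Dual N K E := ⟨f, hf, C, h⟩

@[simp] theorem ofLin_apply (f : E →ₗ[K] K) (hf : DefF N (fun x => f x)) (C : R)
    (h : ∀ x, nm (f x) ≤ C * nm x) (x : E) : ofLin f hf C h x = f x := rfl

theorem smul_arg (u : Dual N K E) (c : K) (x : E) : u (c • x) = c * u x := u.1.map_smul c x

end Basic

variable (N K E) in
/-- the dual as a submodule -/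
def sub : Submodule K (E →ₗ[K] K) where
  carrier := {f | DefF N (fun x => f x) ∧ ∃ C : R, ∀ x, nm (f x) ≤ C * nm x}
  zero_mem' := ⟨DefF.const (0 : K), 0, fun x => by simp⟩
  add_mem' := fun {f g} ⟨hf, C, hC⟩ ⟨hg, D, hD⟩ => ⟨hf.add hg, C + D, fun x => by
    rw [add_mul]; exact (nm_add_le _ _).trans (add_le_add (hC x) (hD x))⟩
  smul_mem' := fun c f ⟨hf, C, hC⟩ => ⟨(DefF.const c).mul hf, nm c * C, fun x => by
    rw [LinearMap.smul_apply, nm_smul, mul_assoc]
    exact mul_le_mul_of_nonneg_left (hC x) (nm_nonneg c)⟩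

instance : AddCommGroup (Dual N K E) := inferInstanceAs (AddCommGroup (sub N K E))

instance : Module K (Dual N K E) := inferInstanceAs (Module K (sub N K E))

@[simp] theorem zero_apply (x : E) : (0 : Dual N K E) x = 0 := rfl
@[simp] theorem add_apply (u w : Dual N K E) (x : E) : (u + w) x = u x + w x := rfl
@[simp] theorem sub_apply (u w : Dual N K E) (x : E) : (u - w) x = u x - w x := rfl
@[simp] theorem neg_apply (u : Dual N K E) (x : E) : (-u) x = -u x := rfl
@[simp] theorem smul_apply (c : K) (u : Dual N K E) (x : E) : (c • u) x = c * u x := rfl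

/-- evaluation at a point, as a linear map -/
def ev (x : E) : Dual N K E →ₗ[K] K where
  toFun u := u x
  map_add' _ _ := rfl
  map_smul' _ _ := rfl

@[simp] theorem ev_apply (x : E) (u : Dual N K E) : ev x u = u x := rfl

end Dual

/-- Formation of functionals. -/
theorem exists_dual (l : E → K) (hl : DefF N l) (add : ∀ x y, l (x + y) = l x + l y)
    (smul : ∀ (c : K) (x : E), l (c • x) = c * l x) (C : R) (bd : ∀ x, nm (l x) ≤ C * nm x) :
    ∃ u : Dual N K E, ∀ x, u x = l x :=
  ⟨Dual.ofLin ⟨⟨l, add⟩, smul⟩ hl C bd, fun _ => rfl⟩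

noncomputable instance codedDual : Coded N (Dual N K E) :=
  Coded.pull (α := E → K) (fun u => ⇑u) (fun _ _ _ _ h => DFunLike.coe_injective h) (by
    have : DefF N (fun f : E → K => (∀ x y : E, app f (x + y) = app f x + app f y) ∧
        (∀ (c : K) (x : E), app f (c • x) = c * app f x) ∧
        ∃ C : R, ∀ x : E, nm (app f x) ≤ C * nm x) := by fun_prop
    refine this.congrP fun f hf => ⟨fun ⟨h1, h2, C, h3⟩ => ?_, ?_⟩
    · obtain ⟨u, hu⟩ := exists_dual (N := N) f (DefF.ofIntl f) h1 h2 C h3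
      exact ⟨u, funext hu⟩
    · rintro ⟨u, rfl⟩
      exact ⟨map_add u, u.smul_arg, u.bdd⟩)

theorem code_dual (u : Dual N K E) : code N u = code N (⇑u : E → K) := rfl

instance intl_dual_coe (u : Dual N K E) : Intl N (⇑u : E → K) := u.defF.toIntl

instance intl_dual (u : Dual N K E) : Intl N u := ⟨intl_dual_coe u⟩

instance : Tot N (Dual N K E) where
  car := by
    have h1 : Intl N {s : E → K | Intl N s ∧ Dom N (Dual N K E) (code N s)} :=
      intl_setOf (by fun_prop)
    refine ⟨code N _, fun x => (mem_code_set h1).trans ?_⟩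
    constructor
    · rintro ⟨s, ⟨-, f, hf, h⟩, rfl⟩; exact ⟨f, hf, h⟩
    · rintro ⟨f, hf, rfl⟩; exact ⟨⇑f, ⟨inferInstance, f, hf, rfl⟩, rfl⟩
  all := intl_dual

theorem defF_dual_coe : DefF N (fun u : Dual N K E => (⇑u : E → K)) :=
  ⟨fun _ _ => inferInstance, (DefF.id (N := N) (α := Dual N K E)).2⟩

@[fun_prop] theorem DefF.dualApp {f : α → Dual N K E} {g : α → E} (hf : DefF N f)
    (hg : DefF N g) : DefF N (fun a => f a (g a)) := (defF_dual_coe.comp hf).ap hg

/-- A family of functionals with a definable evaluation is definable. -/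
theorem defF_dual {f : α → Dual N K E} (h : DefF N (fun p : α × E => f p.1 p.2)) : DefF N f :=
  ⟨fun _ _ => inferInstance, (DefF.lam (fun a x => f a x) h).2⟩

namespace Dual

/-- the values on the unit ball -/
def vals (u : Dual N K E) : Set R := {r | ∃ x : E, nm x ≤ 1 ∧ nm (u x) = r}

open Classical in
noncomputable instance : Nm (Dual N K E) R :=
  ⟨fun u => if h : ∃ c, IsLUB (vals u) c then h.choose else 0⟩

theorem isLUB_nm (u : Dual N K E) : IsLUB (vals u) (nm u) := by
  have h : ∃ c, IsLUB (vals u) c := by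
    obtain ⟨C, hC⟩ := u.bdd
    refine RF.lub (N := N) _ (intl_setOfT (by fun_prop)) ⟨_, 0, by simp, rfl⟩ ⟨|C|, ?_⟩
    rintro _ ⟨x, hx, rfl⟩
    exact (hC x).trans ((mul_le_mul_of_nonneg_right (le_abs_self C) (nm_nonneg x)).trans
      (mul_le_of_le_one_right (abs_nonneg C) hx))
  have : nm u = h.choose := dif_pos h
  rw [this]
  exact h.choose_spec

theorem le_nm_of_le_one (u : Dual N K E) {x : E} (hx : nm x ≤ 1) : nm (u x) ≤ nm u :=
  u.isLUB_nm.1 ⟨x, hx, rfl⟩

theorem nm_le_of_ball {u : Dual N K E} {C : R} (h : ∀ x, nm x ≤ 1 → nm (u x) ≤ C) : nm u ≤ C :=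
  u.isLUB_nm.2 (by rintro _ ⟨x, hx, rfl⟩; exact h x hx)

/-- `|u x| ≤ ‖u‖ ‖x‖` -/
theorem le_opNorm (u : Dual N K E) (x : E) : nm (u x) ≤ nm u * nm x := by
  rcases eq_or_ne x 0 with rfl | h
  · simp
  · have h1 := u.le_nm_of_le_one (nm_normalize (K := K) h).le
    have h2 := nm_pos_iff.2 h
    rw [smul_arg, KA.nm_mul, KA.nm_ofR_of_nonneg (inv_nonneg.2 h2.le), inv_mul_le_iff₀ h2,
      mul_comm] at h1
    exact h1

theorem opNorm_le {u : Dual N K E} {C : R} (hC : 0 ≤ C) (h : ∀ x, nm (u x) ≤ C * nm x) :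
    nm u ≤ C :=
  nm_le_of_ball fun x hx => (h x).trans (mul_le_of_le_one_right hC hx)

theorem opNorm_nonneg (u : Dual N K E) : 0 ≤ nm u :=
  (nm_nonneg _).trans (u.le_nm_of_le_one (x := 0) (by simp))

theorem le_of_opNorm_le {u : Dual N K E} {C : R} (h : nm u ≤ C) (x : E) : nm (u x) ≤ C * nm x :=
  (u.le_opNorm x).trans (mul_le_mul_of_nonneg_right h (nm_nonneg x))

instance : NA R K (Dual N K E) where
  nm_add u w := nm_le_of_ball fun x hx =>
    (nm_add_le _ _).trans (add_le_add (u.le_nm_of_le_one hx) (w.le_nm_of_le_one hx))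
  nm_smul c u := by
    have key : ∀ (c : K) (u : Dual N K E), nm (c • u) ≤ nm c * nm u := fun c u =>
      nm_le_of_ball fun x hx => by
        rw [smul_apply, KA.nm_mul]
        exact mul_le_mul_of_nonneg_left (u.le_nm_of_le_one hx) (nm_nonneg c)
    refine le_antisymm (key c u) ?_
    rcases eq_or_ne c 0 with rfl | h
    · rw [nm_zero, zero_mul]; exact opNorm_nonneg _
    · have h1 := key c⁻¹ (c • u)
      rwa [inv_smul_smul₀ h, KA.nm_inv, le_inv_mul_iff₀ (nm_pos_iff.2 h)] at h1
  eq_zero_of_nm u h := ext fun x => nm_le_zero_iff.1 (by simpa [h] using u.le_opNorm x)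

instance : NS N R K (Dual N K E) where
  defAdd := ⟨defF_dual (by simp only [add_apply]; fun_prop)⟩
  defSMul := ⟨defF_dual (by simp only [smul_apply]; fun_prop)⟩
  defNm := ⟨defF_of_rel
    (R := fun (u : Dual N K E) (r : R) => (∀ x : E, nm x ≤ 1 → nm (u x) ≤ r) ∧
      ∀ s : R, (∀ x : E, nm x ≤ 1 → nm (u x) ≤ s) → r ≤ s)
    (fun _ _ => inferInstance) (by fun_prop) fun u r _ _ =>
      ⟨fun h => le_antisymm (nm_le_of_ball h.1) (h.2 _ fun _ => u.le_nm_of_le_one),
        fun h => h ▸ ⟨fun _ => u.le_nm_of_le_one, fun _ => nm_le_of_ball⟩⟩⟩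

theorem exists_lt_apply_le (u : Dual N K E) {r : R} (h : r < nm u) :
    ∃ x, nm x ≤ 1 ∧ r < nm (u x) := by
  by_contra hc
  push Not at hc
  exact absurd (nm_le_of_ball hc) (not_le.2 h)

/-- almost norming vectors in the open unit ball -/
theorem exists_lt_apply (u : Dual N K E) {r : R} (h : r < nm u) :
    ∃ x, nm x < 1 ∧ r < nm (u x) := by
  rcases lt_or_ge r 0 with h0 | h0
  · exact ⟨0, by simp, by simpa using h0⟩
  obtain ⟨x, hx, hr⟩ := u.exists_lt_apply_le h
  have h1 : 0 < nm (u x) := h0.trans_lt hr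
  obtain ⟨t, ht, ht1⟩ := exists_between ((div_lt_one h1).2 hr)
  have ht0 : 0 ≤ t := (div_nonneg h0 h1.le).trans ht.le
  refine ⟨algebraMap R K t • x, ?_, ?_⟩
  · rw [nm_ofR_smul_of_nonneg ht0]
    exact (mul_le_of_le_one_right ht0 hx).trans_lt ht1
  · rw [smul_arg, KA.nm_mul, KA.nm_ofR_of_nonneg ht0]
    exact (div_lt_iff₀ h1).1 ht

/-- almost norming vectors with a real value -/
theorem exists_lt_re (u : Dual N K E) {r : R} (h : r < nm u) :
    ∃ x, nm x < 1 ∧ r < KA.re (u x) ∧ KA.im (u x) = 0 := by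
  obtain ⟨x, hx, hr⟩ := u.exists_lt_apply h
  refine ⟨KA.rot (u x) • x, by rwa [nm_smul, KA.nm_rot, one_mul], ?_, ?_⟩
  · rwa [smul_arg, KA.rot_mul, KA.re_ofR]
  · rw [smul_arg, KA.rot_mul, KA.im_ofR]

theorem re_le_opNorm (u : Dual N K E) (x : E) : KA.re (u x) ≤ nm u * nm x :=
  (KA.re_le_nm _).trans (u.le_opNorm x)

theorem isum_apply {f : NN N → Dual N K E} (hf : DefF N f) (n : NN N) (x : E) :
    (isum f n) x = isum (fun i => f i x) n :=
  map_isum' (φ := fun u : Dual N K E => u x) (by fun_prop) rfl (fun _ _ => rfl) hf n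

theorem apply_isum (u : Dual N K E) {f : NN N → E} (hf : DefF N f) (n : NN N) :
    u (isum f n) = isum (fun i => u (f i)) n :=
  map_isum' (φ := fun x : E => u x) (by fun_prop) (map_zero u) (map_add u) hf n

end Dual

end Vale.Agent.P129B
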