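import Vale.Agent.P129B.Coded2

/-!
# Choice, towers, the well-ordering theorem and Zorn's lemma inside a model of ZFC
-/

namespace Vale.Agent.P129B

open Vale.Agent.P323.Z

universe v

variable {N : Type v} [ZM N]
variable {α β : Type*} [Coded N α] [Coded N β]

namespace Zo

/-- The internal subsets of an internal set form an internal set. -/
theorem intl_pow (B : Set α) [hB : Intl N B] : Intl N {s : Set α | Intl N s ∧ s ⊆ B} := by
  refine intl_set.2 ⟨fun s hs => hs.1, pow (code N B), fun x => ?_⟩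
  rw [mem_pow]
  constructor
  · intro h
    obtain ⟨s, hs, rfl⟩ := exists_set_of_sub (α := α) (A := x) fun y hy => by
      obtain ⟨a, ha, rfl⟩ := (mem_code_set hB).1 (h y hy)
      exact ⟨a, hB.of_mem ha, rfl⟩
    exact ⟨s, ⟨hs, fun a ha => (code_mem_code hB (hs.of_mem ha)).1
      (h _ ((code_mem_code hs (hs.of_mem ha)).2 ha))⟩, rfl⟩
  · rintro ⟨s, ⟨hs, hsB⟩, rfl⟩ y hy
    obtain ⟨a, ha, rfl⟩ := (mem_code_set hs).1 hy
    exact (code_mem_code hB (hs.of_mem ha)).2 (hsB ha)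

theorem intl_sUnion (S : Set (Set α)) [hS : Intl N S] : Intl N (⋃₀ S) := by
  refine intl_set.2 ⟨fun a ⟨s, hs, ha⟩ => (hS.of_mem hs).of_mem ha, sUnion (code N S), fun x => ?_⟩
  rw [mem_sUnion]
  constructor
  · rintro ⟨y, hy, hx⟩
    obtain ⟨s, hs, rfl⟩ := (mem_code_set hS).1 hy
    obtain ⟨a, ha, rfl⟩ := (mem_code_set (hS.of_mem hs)).1 hx
    exact ⟨a, ⟨s, hs, ha⟩, rfl⟩
  · rintro ⟨a, ⟨s, hs, ha⟩, rfl⟩
    have h1 := hS.of_mem hs
    exact ⟨code N s, (code_mem_code hS h1).2 hs, (code_mem_code h1 (h1.of_mem ha)).2 ha⟩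

theorem defF_sUnion {S : β → Set (Set α)} (hS : DefF N S) : DefF N (fun a => ⋃₀ S a) :=
  defF_set (fun a ha => @intl_sUnion N _ α _ _ (hS.1 a ha)) (by
    have : DefF N (fun p : β × α => ∃ s ∈ S p.1, p.2 ∈ s) := by fun_prop
    exact this)

theorem intl_insert (x : α) (s : Set α) [hx : Intl N x] [hs : Intl N s] :
    Intl N (insert x s) := by
  refine intl_set.2 ⟨?_, ins (code N x) (code N s), fun y => ?_⟩
  · rintro a (rfl | ha)
    exacts [hx, hs.of_mem ha]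
  · rw [mem_ins, mem_code_set hs]
    constructor
    · rintro (⟨a, ha, rfl⟩ | rfl)
      exacts [⟨a, Or.inr ha, rfl⟩, ⟨x, Or.inl rfl, rfl⟩]
    · rintro ⟨a, rfl | ha, rfl⟩
      exacts [Or.inr rfl, Or.inl ⟨a, ha, rfl⟩]

theorem defF_insert {x : β → α} {s : β → Set α} (hx : DefF N x) (hs : DefF N s) :
    DefF N (fun a => insert (x a) (s a)) :=
  defF_set (fun a ha => @intl_insert N _ α _ _ _ (hx.1 a ha) (hs.1 a ha)) (by
    have : DefF N (fun p : β × α => p.2 = x p.1 ∨ p.2 ∈ s p.1) := by fun_prop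
    exact this)

/-- A definable choice relation on the internal subsets of an internal set. -/
theorem exists_chRel (B : Set α) [hB : Intl N B] : ∃ Ch : Set α → α → Prop,
    DefF N (fun p : Set α × α => Ch p.1 p.2) ∧
      ∀ s, Intl N s → s ⊆ B → s.Nonempty → ∃ b ∈ s, Ch s b ∧ ∀ c, Intl N c → Ch s c → c = b := by
  have h1 : Intl N {s : Set α | s ∈ {s : Set α | Intl N s ∧ s ⊆ B} ∧ ∃ b ∈ s, b = b} :=
    @intl_sep N _ _ _ _ (by fun_prop) _ (intl_pow B)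
  obtain ⟨c, U, hc, hc'⟩ := ZM.ac (N := N) (code N _) fun A hA => by
    obtain ⟨s, ⟨hs, b, hb, -⟩, rfl⟩ := (mem_code_set h1).1 hA
    exact ⟨code N b, (code_mem_code hs.1 (hs.1.of_mem hb)).2 hb⟩
  refine ⟨fun s b => op (code N s) (code N b) ∈ c, by fun_prop, fun s hs hsB ⟨b, hb⟩ => ?_⟩
  obtain ⟨y, hy, hy'⟩ := hc.value (code N s) ((code_mem_code h1 hs).2 ⟨⟨hs, hsB⟩, b, hb, rfl⟩)
  obtain ⟨a, ha, rfl⟩ := (mem_code_set hs).1 (hc' _ _ hy)
  exact ⟨a, ha, pairMem_iff.1 hy, fun d hd h =>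
    code_inj hd (hs.of_mem ha) (hy' _ (pairMem_iff.2 h))⟩

/-- A definable choice of witnesses from an internal set. -/
theorem choice_of_set [Nonempty β] (B : Set β) [hB : Intl N B] {R : α → β → Prop}
    (hR : DefF N (fun p : α × β => R p.1 p.2)) (h : ∀ a, Intl N a → ∃ b ∈ B, R a b) :
    ∃ f : α → β, DefF N f ∧ ∀ a, Intl N a → f a ∈ B ∧ R a (f a) := by
  obtain ⟨Ch, hCh, H⟩ := exists_chRel (N := N) B
  have hS : DefF N (fun a => {b | b ∈ B ∧ R a b}) :=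
    defF_set (fun a _ => intl_sep (hR.comp2 (DefF.const a) DefF.id) B) (by
      have : DefF N (fun p : α × β => p.2 ∈ B ∧ R p.1 p.2) := by fun_prop
      exact this)
  have key : ∀ a, Intl N a → ∃ b, (b ∈ B ∧ R a b) ∧ Ch {b | b ∈ B ∧ R a b} b ∧
      ∀ c, Intl N c → Ch {b | b ∈ B ∧ R a b} c → c = b := fun a ha =>
    H _ (hS.1 a ha) (fun _ hb => hb.1) (h a ha)
  choose! f hf1 hf2 hf3 using key
  exact ⟨f, defF_of_rel (R := fun a b => Ch {b | b ∈ B ∧ R a b} b)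
    (fun a ha => hB.of_mem (hf1 a ha).1)
    (hCh.comp2 (hS.comp DefF.id.fst) DefF.id.snd)
    fun a b ha hb => ⟨fun H => (hf3 a ha b hb H).symm, fun H => H ▸ hf2 a ha⟩, hf1⟩

/-- Towers: for a definable expanding map `g` on the internal subsets of `B` there is an internal
family `T`, closed under `g` and internal unions, totally ordered, with an induction principle. -/
theorem exists_tower (B : Set α) [hB : Intl N B] {g : Set α → Set α} (hg : DefF N g)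
    (h1 : ∀ s, Intl N s → s ⊆ B → s ⊆ g s ∧ g s ⊆ B) :
    ∃ T : Set (Set α), Intl N T ∧ (∀ c ∈ T, c ⊆ B) ∧ (∀ c ∈ T, g c ∈ T) ∧
      (∀ S, Intl N S → S ⊆ T → ⋃₀ S ∈ T) ∧ (∀ c ∈ T, ∀ d ∈ T, g d ⊆ c ∨ c ⊆ d) ∧
      ∀ Q : Set α → Prop, DefF N Q → (∀ c ∈ T, Q c → Q (g c)) →
        (∀ S, Intl N S → S ⊆ T → (∀ c ∈ S, Q c) → Q (⋃₀ S)) → ∀ c ∈ T, Q c := by
  have hP := intl_pow (N := N) B
  have hU : DefF N (fun S : Set (Set α) => ⋃₀ S) := defF_sUnion DefF.id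
  let Cl : Set (Set α) → Prop := fun F => (∀ c ∈ F, g c ∈ F) ∧
    ∀ S, Intl N S → S ⊆ F → ⋃₀ S ∈ F
  have hCl : DefF N Cl := by
    simp only [Cl]
    fun_prop
  let T : Set (Set α) := {c | c ∈ {s : Set α | Intl N s ∧ s ⊆ B} ∧ ∀ F, Intl N F → Cl F → c ∈ F}
  have hT : Intl N T := intl_sep (by fun_prop) _
  have Tg : ∀ c ∈ T, g c ∈ T := fun c hc =>
    ⟨⟨hg.1 c hc.1.1, (h1 c hc.1.1 hc.1.2).2⟩, fun F hF hF' => hF'.1 c (hc.2 F hF hF')⟩
  have Tu : ∀ S, Intl N S → S ⊆ T → ⋃₀ S ∈ T := fun S hS hST =>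
    ⟨⟨intl_sUnion S, Set.sUnion_subset fun c hc => (hST hc).1.2⟩,
      fun F hF hF' => hF'.2 S hS fun c hc => (hST hc).2 F hF hF'⟩
  have ind : ∀ Q : Set α → Prop, DefF N Q → (∀ c ∈ T, Q c → Q (g c)) →
      (∀ S, Intl N S → S ⊆ T → (∀ c ∈ S, Q c) → Q (⋃₀ S)) → ∀ c ∈ T, Q c := by
    intro Q hQ q1 q2 c hc
    exact (hc.2 {c | c ∈ T ∧ Q c} (intl_sep hQ T) ⟨fun c hc => ⟨Tg c hc.1, q1 c hc.1 hc.2⟩,
      fun S hS hS' => ⟨Tu S hS fun c hc => (hS' hc).1,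
        q2 S hS (fun c hc => (hS' hc).1) fun c hc => (hS' hc).2⟩⟩).2
  have sub : ∀ c ∈ T, c ⊆ g c := fun c hc => (h1 c hc.1.1 hc.1.2).1
  have aux : ∀ d ∈ T, (∀ e ∈ T, e ⊆ d → d = e ∨ g e ⊆ d) → ∀ c ∈ T, g d ⊆ c ∨ c ⊆ d := by
    intro d hd h
    have := hd.1.1
    refine ind (fun c => g d ⊆ c ∨ c ⊆ d) (by fun_prop) (fun c hc ih => ?_) fun S _ _ ih => ?_
    · rcases ih with ih | ih
      · exact Or.inl (ih.trans (sub c hc))
      · rcases h c hc ih with rfl | h2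
        · exact Or.inl Set.Subset.rfl
        · exact Or.inr h2
    · refine or_iff_not_imp_left.2 fun hn => Set.sUnion_subset fun a ha => ?_
      exact (ih a ha).resolve_left fun h => hn (h.trans (Set.subset_sUnion_of_mem ha))
  have tot : ∀ d ∈ T, ∀ e ∈ T, e ⊆ d → d = e ∨ g e ⊆ d := by
    refine ind (fun d => ∀ e ∈ T, e ⊆ d → d = e ∨ g e ⊆ d) (by fun_prop)
      (fun d hd ih e he h => ?_) fun S _ hS ih e he h => ?_
    · refine (aux d hd ih e he).imp h.antisymm' fun h2 => ?_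
      rcases ih e he h2 with rfl | h3
      · exact Set.Subset.rfl
      · exact h3.trans (sub d hd)
    · refine or_iff_not_imp_right.2 fun hn => h.antisymm' (Set.sUnion_subset fun c hc => ?_)
      rcases aux c (hS hc) (ih c hc) e he with h2 | h2
      · exact (sub c (hS hc)).trans h2
      · rcases ih c hc e he h2 with h3 | h3
        · exact h3.subset
        · exact absurd (h3.trans (Set.subset_sUnion_of_mem hc)) hn
  exact ⟨T, hT, fun c hc => hc.1.2, Tg, Tu, fun c hc d hd => aux d hd (tot d hd) c hc, ind⟩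

/-- A definable one point extension. -/
theorem exists_step (B : Set α) [hB : Intl N B] {P : Set α → α → Prop}
    (hP : DefF N (fun p : Set α × α => P p.1 p.2)) :
    ∃ g : Set α → Set α, DefF N g ∧ ∀ s, Intl N s → s ⊆ B →
      (g s = s ∧ ∀ x ∈ B, ¬ P s x) ∨ ∃ x ∈ B, P s x ∧ g s = insert x s := by
  have h0 := intl_pow (N := N) B
  have hi : DefF N (fun p : Set α × α => insert p.2 p.1) := defF_insert (by fun_prop) (by fun_prop)
  obtain ⟨g, hg, H⟩ := choice_of_set (N := N) (α := Set α) {s : Set α | Intl N s ∧ s ⊆ B}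
    (R := fun s t => s ⊆ B → (t = s ∧ ∀ x ∈ B, ¬ P s x) ∨ ∃ x ∈ B, P s x ∧ t = insert x s)
    (by
      have h2 : DefF N (fun p : (Set α × Set α) × α => insert p.2 p.1.1) :=
        defF_insert (by fun_prop) (by fun_prop)
      fun_prop) fun s hs => by
      by_cases h1 : s ⊆ B
      · by_cases h2 : ∃ x ∈ B, P s x
        · obtain ⟨x, hx, h2⟩ := h2
          have := hB.of_mem hx
          exact ⟨insert x s, ⟨intl_insert x s, Set.insert_subset hx h1⟩,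
            fun _ => Or.inr ⟨x, hx, h2, rfl⟩⟩
        · exact ⟨s, ⟨hs, h1⟩, fun _ => Or.inl ⟨rfl, fun x hx h => h2 ⟨x, hx, h⟩⟩⟩
      · exact ⟨∅, ⟨inferInstance, Set.empty_subset _⟩, fun h => absurd h h1⟩
  exact ⟨g, hg, fun s hs hsB => (H s hs).2 hsB⟩

end Zo

/-- An internal set carries a definable internal well-order. -/
theorem exists_defF_wo (B : Set α) [hB : Intl N B] : ∃ lt : α → α → Prop,
    DefF N (fun p : α × α => lt p.1 p.2) ∧ (∀ x, ¬ lt x x) ∧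
      (∀ x y z, lt x y → lt y z → lt x z) ∧ (∀ x ∈ B, ∀ y ∈ B, x = y ∨ lt x y ∨ lt y x) ∧
      ∀ S : Set α, Intl N S → S ⊆ B → S.Nonempty → ∃ x ∈ S, ∀ y ∈ S, x = y ∨ lt x y := by
  obtain ⟨g, hg, H⟩ := Zo.exists_step (N := N) B (P := fun s x => ¬ x ∈ s) (by fun_prop)
  obtain ⟨T, hT, T1, T2, T3, T4, -⟩ := Zo.exists_tower (N := N) B hg fun s hs hsB => by
    rcases H s hs hsB with ⟨h, -⟩ | ⟨x, hx, -, h⟩ <;> rw [h]
    exacts [⟨Set.Subset.rfl, hsB⟩, ⟨Set.subset_insert _ _, Set.insert_subset hx hsB⟩]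
  have sub : ∀ c ∈ T, c ⊆ g c := fun c hc => by
    rcases H c (hT.of_mem hc) (T1 c hc) with ⟨h, -⟩ | ⟨x, -, -, h⟩ <;> rw [h]
    exact Set.subset_insert _ _
  have min : ∀ S : Set α, Intl N S → S ⊆ B → S.Nonempty →
      ∃ x ∈ S, ∀ y ∈ S, x = y ∨ ∃ c ∈ T, x ∈ c ∧ ¬ y ∈ c := by
    intro S hS hSB ⟨z, hz⟩
    have h1 : Intl N {d | d ∈ T ∧ ∀ y ∈ S, ¬ y ∈ d} := intl_sep (by fun_prop) T
    have h2 := T3 _ h1 fun d hd => hd.1
    have h3 : ∀ y ∈ S, ¬ y ∈ ⋃₀ {d | d ∈ T ∧ ∀ y ∈ S, ¬ y ∈ d} :=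
      fun y hy ⟨d, hd, h⟩ => hd.2 y hy h
    have h4 : ∀ d ∈ T, (∀ y ∈ S, ¬ y ∈ d) → d ⊆ ⋃₀ {d | d ∈ T ∧ ∀ y ∈ S, ¬ y ∈ d} :=
      fun d hd h => Set.subset_sUnion_of_mem ⟨hd, h⟩
    generalize ⋃₀ {d | d ∈ T ∧ ∀ y ∈ S, ¬ y ∈ d} = c at h2 h3 h4
    rcases H c (hT.of_mem h2) (T1 c h2) with ⟨-, h⟩ | ⟨x, -, hx, h⟩
    · exact absurd (h3 z hz) (h z (hSB hz))
    · have h5 : ∀ y ∈ S, y ∈ g c → y = x := fun y hy hy' => by
        rw [h] at hy'
        exact hy'.resolve_right (h3 y hy)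
      have h6 : x ∈ g c := h ▸ Set.mem_insert _ _
      have h7 : x ∈ S := by
        by_contra h7
        exact hx (h4 _ (T2 c h2) (fun y hy hy' => h7 (h5 y hy hy' ▸ hy)) h6)
      exact ⟨x, h7, fun y hy => or_iff_not_imp_left.2 fun hne =>
        ⟨g c, T2 c h2, h6, fun hy' => hne (h5 y hy hy').symm⟩⟩
  refine ⟨fun x y => ∃ c ∈ T, x ∈ c ∧ ¬ y ∈ c, by fun_prop, fun x ⟨c, _, h, h'⟩ => h' h,
    ?_, fun x hx y hy => ?_, min⟩
  · rintro x y z ⟨c, hc, h1, h2⟩ ⟨d, hd, h3, h4⟩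
    rcases T4 c hc d hd with h | h
    · exact absurd (h (sub d hd h3)) h2
    · exact ⟨d, hd, h h1, h4⟩
  · have h1 : Intl N ({x, y} : Set α) := intl_of_finite (Set.toFinite _) (by
      rintro a (rfl | rfl)
      exacts [hB.of_mem hx, hB.of_mem hy])
    obtain ⟨m, hm, h⟩ := min _ h1 (Set.pair_subset hx hy) ⟨x, Or.inl rfl⟩
    rcases hm with rfl | rfl
    · exact (h y (Or.inr rfl)).imp_right Or.inl
    · exact (h x (Or.inl rfl)).elim (fun e => Or.inl e.symm) fun e => Or.inr (Or.inr e)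

/-- Zorn's lemma. -/
theorem intl_zorn (B : Set α) [hB : Intl N B] {le : α → α → Prop}
    (hle : DefF N (fun p : α × α => le p.1 p.2))
    (trans : ∀ x y z, le x y → le y z → le x z)
    (hch : ∀ C : Set α, Intl N C → C ⊆ B → (∀ x ∈ C, ∀ y ∈ C, x = y ∨ le x y ∨ le y x) →
      ∃ u ∈ B, ∀ x ∈ C, le x u) : ∃ m ∈ B, ∀ w ∈ B, le m w → le w m := by
  obtain ⟨g, hg, H⟩ := Zo.exists_step (N := N) B
    (P := fun s x => ¬ x ∈ s ∧ ∀ y ∈ s, le y x) (by fun_prop)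
  obtain ⟨T, hT, T1, T2, T3, T4, T5⟩ := Zo.exists_tower (N := N) B hg fun s hs hsB => by
    rcases H s hs hsB with ⟨h, -⟩ | ⟨x, hx, -, h⟩ <;> rw [h]
    exacts [⟨Set.Subset.rfl, hsB⟩, ⟨Set.subset_insert _ _, Set.insert_subset hx hsB⟩]
  have sub : ∀ c ∈ T, c ⊆ g c := fun c hc => by
    rcases H c (hT.of_mem hc) (T1 c hc) with ⟨h, -⟩ | ⟨x, -, -, h⟩ <;> rw [h]
    exact Set.subset_insert _ _
  have chain : ∀ c ∈ T, ∀ x ∈ c, ∀ y ∈ c, x = y ∨ le x y ∨ le y x := by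
    refine T5 (fun c => ∀ x ∈ c, ∀ y ∈ c, x = y ∨ le x y ∨ le y x) (by fun_prop)
      (fun c hc ih => ?_) fun S _ hS ih => ?_
    · rcases H c (hT.of_mem hc) (T1 c hc) with ⟨h, -⟩ | ⟨z, -, hz, h⟩ <;> rw [h]
      · exact ih
      · rintro x (rfl | hx) y (rfl | hy)
        exacts [Or.inl rfl, Or.inr (Or.inr (hz.2 y hy)), Or.inr (Or.inl (hz.2 x hx)),
          ih x hx y hy]
    · rintro x ⟨c, hc, hx⟩ y ⟨d, hd, hy⟩
      rcases T4 c (hS hc) d (hS hd) with h | h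
      · exact ih c hc x hx y (h (sub d (hS hd) hy))
      · exact ih d hd x (h hx) y hy
  have hm := T3 T hT Set.Subset.rfl
  obtain ⟨u, hu, hub⟩ := hch _ (hT.of_mem hm) (T1 _ hm) (chain _ hm)
  refine ⟨u, hu, fun w hw huw => hub w ?_⟩
  by_contra hn
  rcases H _ (hT.of_mem hm) (T1 _ hm) with ⟨-, h⟩ | ⟨x, -, hx, h⟩
  · exact h w hw ⟨hn, fun y hy => trans _ _ _ (hub y hy) huw⟩
  · exact hx.1 (Set.subset_sUnion_of_mem (T2 _ hm) (h ▸ Set.mem_insert _ _))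

end Vale.Agent.P129B
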