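import Vale.Agent.P129BZ.Zorn
import Vale.Agent.P129B.Ops

/-!
# The Hahn-Banach theorem inside a model of ZFC
-/

namespace Vale.Agent.P129B

universe v

variable {N : Type v} [ZM N]

section HB

variable {R : Type*} [Field R] [LinearOrder R] [IsStrictOrderedRing R] [Coded N R] [Tot N R]
  [DefAdd N R] [DefSub N R] [DefMul N R] [DefLE N R]
  {W : Type*} [AddCommGroup W] [Module R W] [Coded N W] [Bdd N W] [DefAdd N W] [DefSMul N R W]

/-- The Hahn-Banach theorem for a definable sublinear function on an internal real vector space. -/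
theorem exists_defF_linear_of_lub
    (lub : ∀ S : Set R, Intl N S → S.Nonempty → BddAbove S → ∃ c, IsLUB S c)
    (V : Set W) [hV : Intl N V]
    (Vadd : ∀ x ∈ V, ∀ y ∈ V, x + y ∈ V) (Vsmul : ∀ c : R, Intl N c → ∀ x ∈ V, c • x ∈ V)
    (p : W → R) (hp : DefF N p) (padd : ∀ x ∈ V, ∀ y ∈ V, p (x + y) ≤ p x + p y)
    (psmul : ∀ c : R, Intl N c → 0 < c → ∀ x ∈ V, p (c • x) = c * p x) {x₀ : W} (hx₀ : x₀ ∈ V) :
    ∃ l : W → R, DefF N l ∧ (∀ x ∈ V, ∀ y ∈ V, l (x + y) = l x + l y) ∧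
      (∀ c : R, Intl N c → ∀ x ∈ V, l (c • x) = c * l x) ∧ (∀ x ∈ V, l x ≤ p x) ∧
      l x₀ = p x₀ := by
  classical
  have hx₀I := hV.of_mem hx₀
  have hpx₀ := hp.intl x₀
  have V0 : (0 : W) ∈ V := by simpa using Vsmul 0 inferInstance x₀ hx₀
  have p0 : p 0 = 0 := by
    have := psmul 2 inferInstance two_pos 0 V0
    rw [smul_zero] at this
    linarith
  -- the dominated linear relations
  let Ok : Set (W × R) → Prop := fun G => (∀ z ∈ G, z.1 ∈ V ∧ z.2 ≤ p z.1) ∧ (x₀, p x₀) ∈ G ∧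
    (∀ z ∈ G, ∀ w ∈ G, (z.1 + w.1, z.2 + w.2) ∈ G) ∧
    ∀ c : R, Intl N c → ∀ z ∈ G, (c • z.1, c * z.2) ∈ G
  have hOk : DefF N Ok := by
    simp only [Ok]
    fun_prop
  have hB : Intl N {G : Set (W × R) | Intl N G ∧ Ok G} := intl_setOf hOk
  have hbase : ∃ G, Intl N G ∧ Ok G := by
    refine ⟨{z | Intl N z ∧ ∃ t : R, Intl N t ∧ z = (t • x₀, t * p x₀)}, intl_setOf (by fun_prop),
      ?_, ⟨inferInstance, 1, inferInstance, by simp⟩, ?_, ?_⟩
    · rintro z ⟨-, t, ht, rfl⟩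
      refine ⟨Vsmul t ht x₀ hx₀, ?_⟩
      show t * p x₀ ≤ p (t • x₀)
      rcases lt_trichotomy t 0 with h | h | h
      · have h1 := padd _ (Vsmul t ht x₀ hx₀) _ (Vsmul (-t) inferInstance x₀ hx₀)
        rw [← add_smul, add_neg_cancel, zero_smul, p0,
          psmul (-t) inferInstance (neg_pos.2 h) x₀ hx₀] at h1
        linarith
      · rw [h, zero_smul, p0, zero_mul]
      · rw [psmul t ht h x₀ hx₀]
    · rintro z ⟨-, t, ht, rfl⟩ w ⟨-, s, hs, rfl⟩
      exact ⟨inferInstance, t + s, inferInstance, by simp [add_smul, add_mul]⟩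
    · rintro c hc z ⟨-, t, ht, rfl⟩
      exact ⟨inferInstance, c * t, inferInstance, by simp [mul_smul, mul_assoc]⟩
  obtain ⟨G, ⟨hG, hG1, hG2, hG3, hG4⟩, hmax⟩ := intl_zorn (N := N)
    {G : Set (W × R) | Intl N G ∧ Ok G}
    (le := fun G H => G ⊆ H) (by fun_prop) (fun _ _ _ => Set.Subset.trans) fun C hC hCB hch => by
      rcases C.eq_empty_or_nonempty with rfl | ⟨G₀, hG₀⟩
      · obtain ⟨G, hG⟩ := hbase
        exact ⟨G, hG, fun x hx => hx.elim⟩
      · refine ⟨{z | Intl N z ∧ ∃ G ∈ C, z ∈ G}, ⟨intl_setOf (by fun_prop), ?_,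
          ⟨intl_mk x₀ (p x₀), G₀, hG₀, (hCB hG₀).2.2.1⟩, ?_, ?_⟩,
          fun G hG z hz => ⟨(hCB hG).1.of_mem hz, G, hG, hz⟩⟩
        · rintro z ⟨-, G, hG, hz⟩
          exact (hCB hG).2.1 z hz
        · rintro z ⟨hz', G, hG, hz⟩ w ⟨hw', H, hH, hw⟩
          refine ⟨inferInstance, ?_⟩
          rcases hch G hG H hH with rfl | h | h
          · exact ⟨G, hG, (hCB hG).2.2.2.1 z hz w hw⟩
          · exact ⟨H, hH, (hCB hH).2.2.2.1 z (h hz) w hw⟩
          · exact ⟨G, hG, (hCB hG).2.2.2.1 z hz w (h hw)⟩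
        · rintro c hc z ⟨hz', G, hG, hz⟩
          exact ⟨inferInstance, G, hG, (hCB hG).2.2.2.2 c hc z hz⟩
  have G0 : ((0 : W), (0 : R)) ∈ G := by simpa using hG4 0 inferInstance _ hG2
  have uniq : ∀ x t t', (x, t) ∈ G → (x, t') ∈ G → t = t' := by
    have : ∀ x t t', (x, t) ∈ G → (x, t') ∈ G → t ≤ t' := by
      intro x t t' h h'
      have h1 := (hG1 _ (hG3 _ h _ (hG4 (-1) inferInstance _ h'))).2
      simp only [neg_smul, one_smul, add_neg_cancel, p0] at h1
      linarith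
    exact fun x t t' h h' => le_antisymm (this x t t' h h') (this x t' t h' h)
  have tot : ∀ y ∈ V, ∃ c, (y, c) ∈ G := by
    intro y hy
    have hyI := hV.of_mem hy
    have hny := Vsmul (-1) inferInstance y hy
    let S : Set R := (fun z : W × R => z.2 - p (z.1 + (-1 : R) • y)) '' G
    have hS : Intl N S := intl_image (by fun_prop) G
    have hub : ∀ w ∈ G, ∀ s ∈ S, s ≤ p (w.1 + y) - w.2 := by
      rintro w hw _ ⟨z, hz, rfl⟩
      have h1 := (hG1 _ (hG3 z hz w hw)).2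
      have h2 := padd _ (Vadd _ (hG1 z hz).1 _ hny) _ (Vadd _ (hG1 w hw).1 _ hy)
      have h3 : z.1 + (-1 : R) • y + (w.1 + y) = z.1 + w.1 := by
        rw [neg_smul, one_smul]; abel
      rw [h3] at h2
      simp only at h1 ⊢
      linarith
    have hne : S.Nonempty := ⟨_, _, G0, rfl⟩
    have hbdd : BddAbove S := ⟨_, hub _ G0⟩
    obtain ⟨c, hc⟩ := lub S hS hne hbdd
    have hc1 : ∀ z ∈ G, z.2 - p (z.1 + (-1 : R) • y) ≤ c := fun z hz => hc.1 ⟨z, hz, rfl⟩
    have hc2 : ∀ w ∈ G, c ≤ p (w.1 + y) - w.2 := fun w hw => hc.2 (hub w hw)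
    let G' : Set (W × R) :=
      {z | Intl N z ∧ ∃ w ∈ G, ∃ s : R, Intl N s ∧ z = (w.1 + s • y, w.2 + s * c)}
    have hsub : G ⊆ G' := fun z hz => ⟨hG.of_mem hz, z, hz, 0, inferInstance, by simp⟩
    have hG' : Intl N G' ∧ Ok G' := by
      refine ⟨intl_setOf (by fun_prop), ?_, hsub hG2, ?_, ?_⟩
      · rintro z ⟨-, w, hw, s, hs, rfl⟩
        have hwV := (hG1 w hw).1
        refine ⟨Vadd _ hwV _ (Vsmul s hs y hy), ?_⟩
        show w.2 + s * c ≤ p (w.1 + s • y)
        rcases lt_trichotomy s 0 with h | h | h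
        · have h0 : 0 < -s := neg_pos.2 h
          have h1 := hc1 _ (hG4 (-s)⁻¹ inferInstance w hw)
          have h2 := psmul (-s) inferInstance h0 _
            (Vadd _ (Vsmul (-s)⁻¹ inferInstance _ hwV) _ hny)
          rw [smul_add, smul_smul, smul_smul, mul_inv_cancel₀ h0.ne', one_smul, mul_neg_one,
            neg_neg] at h2
          simp only at h1
          have h3 := mul_le_mul_of_nonneg_left h1 h0.le
          rw [mul_sub, ← mul_assoc, mul_inv_cancel₀ h0.ne', one_mul] at h3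
          linarith
        · rw [h, zero_smul, zero_mul, add_zero, add_zero]
          exact (hG1 w hw).2
        · have h1 := hc2 _ (hG4 s⁻¹ inferInstance w hw)
          have h2 := psmul s hs h _ (Vadd _ (Vsmul s⁻¹ inferInstance _ hwV) _ hy)
          rw [smul_add, smul_smul, mul_inv_cancel₀ h.ne', one_smul] at h2
          simp only at h1
          have h3 := mul_le_mul_of_nonneg_left h1 h.le
          rw [mul_sub, ← mul_assoc, mul_inv_cancel₀ h.ne', one_mul] at h3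
          linarith
      · rintro z ⟨hz', w, hw, s, hs, rfl⟩ z' ⟨hz'', w', hw', s', hs', rfl⟩
        have := hG.of_mem hw
        have := hG.of_mem hw'
        refine ⟨inferInstance, _, hG3 w hw w' hw', s + s', inferInstance, Prod.ext ?_ ?_⟩
        · simp only [add_smul]; abel
        · simp only; ring
      · rintro a ha z ⟨hz', w, hw, s, hs, rfl⟩
        have := hG.of_mem hw
        refine ⟨inferInstance, _, hG4 a ha w hw, a * s, inferInstance, Prod.ext ?_ ?_⟩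
        · simp only [smul_add, mul_smul]
        · simp only; ring
    exact ⟨c, hmax G' hG' hsub ⟨inferInstance, _, G0, 1, inferInstance, by simp⟩⟩
  choose! l₀ hl₀ using tot
  let l : W → R := fun x => if x ∈ V then l₀ x else 0
  have hl : ∀ x ∈ V, (x, l x) ∈ G := fun x hx => by
    simp only [l, if_pos hx]; exact hl₀ x hx
  refine ⟨l, defF_of_rel (R := fun x (t : R) => (x ∈ V ∧ (x, t) ∈ G) ∨ (¬ x ∈ V ∧ t = 0))
    (fun x _ => ?_) (by fun_prop) fun x t _ _ => ?_, fun x hx y hy => ?_, fun c hc x hx => ?_,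
    fun x hx => (hG1 _ (hl x hx)).2, uniq _ _ _ (hl x₀ hx₀) hG2⟩
  · by_cases hx : x ∈ V
    · exact (intl_prod.1 (hG.of_mem (hl x hx))).2
    · simp only [l, if_neg hx]; infer_instance
  · by_cases hx : x ∈ V
    · simp only [hx, true_and, not_true_eq_false, false_and, or_false]
      exact ⟨fun h => uniq _ _ _ (hl x hx) h, fun h => h ▸ hl x hx⟩
    · simp only [hx, false_and, not_false_eq_true, true_and, false_or, l, if_false, eq_comm]
  · exact uniq _ _ _ (hl _ (Vadd x hx y hy)) (hG3 _ (hl x hx) _ (hl y hy))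
  · exact uniq _ _ _ (hl _ (Vsmul c hc x hx)) (hG4 c hc _ (hl x hx))

/-- The same, without the side conditions on the scalars. -/
theorem hahn_banach_of_lub
    (lub : ∀ S : Set R, Intl N S → S.Nonempty → BddAbove S → ∃ c, IsLUB S c)
    (V : Set W) [hV : Intl N V]
    (Vadd : ∀ x ∈ V, ∀ y ∈ V, x + y ∈ V) (Vsmul : ∀ c : R, ∀ x ∈ V, c • x ∈ V)
    (p : W → R) (hp : DefF N p) (padd : ∀ x ∈ V, ∀ y ∈ V, p (x + y) ≤ p x + p y)
    (psmul : ∀ c : R, 0 < c → ∀ x ∈ V, p (c • x) = c * p x) {x₀ : W} (hx₀ : x₀ ∈ V) :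
    ∃ l : W → R, DefF N l ∧ (∀ x ∈ V, ∀ y ∈ V, l (x + y) = l x + l y) ∧
      (∀ c : R, ∀ x ∈ V, l (c • x) = c * l x) ∧ (∀ x ∈ V, l x ≤ p x) ∧ l x₀ = p x₀ := by
  obtain ⟨l, h1, h2, h3, h4⟩ := exists_defF_linear_of_lub lub V Vadd (fun c _ => Vsmul c) p hp padd
    (fun c _ => psmul c) hx₀
  exact ⟨l, h1, h2, fun c => h3 c inferInstance, h4⟩

end HB

end Vale.Agent.P129B
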