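import Vale.Agent.P129BZ.Dual
import Vale.Agent.P129BZ.HB

/-!
# The Hahn-Banach theorem for real and complex scalars; norming and vanishing functionals
-/

set_option linter.unusedSectionVars false

namespace Vale.Agent.P129B

universe v

variable {N : Type v} [ZM N] {α : Type*} [Coded N α]
  {R : Type*} [Field R] [LinearOrder R] [IsStrictOrderedRing R] [Coded N R] [RF N R]
  {K : Type*} [Field K] [Algebra R K] [Nm K R] [KA R K] [Coded N K] [KF N R K]

open KA

/-- Hahn-Banach over the reals of the model. -/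
theorem hahn_banach {W : Type*} [AddCommGroup W] [Module R W] [Coded N W] [Bdd N W] [DefAdd N W]
    [DefSMul N R W] (V : Set W) [hV : Intl N V]
    (Vadd : ∀ x ∈ V, ∀ y ∈ V, x + y ∈ V) (Vsmul : ∀ c : R, ∀ x ∈ V, c • x ∈ V)
    (p : W → R) (hp : DefF N p) (padd : ∀ x ∈ V, ∀ y ∈ V, p (x + y) ≤ p x + p y)
    (psmul : ∀ c : R, 0 < c → ∀ x ∈ V, p (c • x) = c * p x) {x₀ : W} (hx₀ : x₀ ∈ V) :
    ∃ l : W → R, DefF N l ∧ (∀ x ∈ V, ∀ y ∈ V, l (x + y) = l x + l y) ∧
      (∀ c : R, ∀ x ∈ V, l (c • x) = c * l x) ∧ (∀ x ∈ V, l x ≤ p x) ∧ l x₀ = p x₀ :=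
  hahn_banach_of_lub RF.lub V Vadd Vsmul p hp padd psmul hx₀

/-- Hahn-Banach for a definable seminorm on an internal vector space over the scalars. -/
theorem hahn_banach_K {W : Type*} [AddCommGroup W] [Module K W] [Coded N W] [Bdd N W] [DefAdd N W]
    [DefSMul N K W] (V : Set W) [hV : Intl N V]
    (Vadd : ∀ x ∈ V, ∀ y ∈ V, x + y ∈ V) (Vsmul : ∀ c : K, ∀ x ∈ V, c • x ∈ V)
    (p : W → R) (hp : DefF N p) (padd : ∀ x ∈ V, ∀ y ∈ V, p (x + y) ≤ p x + p y)
    (psmul : ∀ c : K, ∀ x ∈ V, p (c • x) = nm c * p x) {x₀ : W} (hx₀ : x₀ ∈ V) :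
    ∃ l : W → K, DefF N l ∧ (∀ x ∈ V, ∀ y ∈ V, l (x + y) = l x + l y) ∧
      (∀ c : K, ∀ x ∈ V, l (c • x) = c * l x) ∧ (∀ x ∈ V, nm (l x) ≤ p x) ∧
      l x₀ = algebraMap R K (p x₀) := by
  let _ : Module R W := Module.compHom W (algebraMap R K)
  have hsm : ∀ (r : R) (x : W), r • x = algebraMap R K r • x := fun _ _ => rfl
  have : DefSMul N R W := ⟨by simp only [hsm]; fun_prop⟩
  obtain ⟨l, h1, h2, h3, h4, h5⟩ := hahn_banach (N := N) (R := R) V Vadd (fun c => Vsmul _) p hp padd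
    (fun c h0 x hx => by rw [hsm, psmul _ _ hx, nm_ofR_of_nonneg h0.le]) hx₀
  simp only [hsm] at h3
  let f : W → K := fun x => algebraMap R K (l x) - I * algebraMap R K (l ((I : K) • x))
  have hre : ∀ x, re (f x) = l x := fun x => by
    simp only [f]
    rw [map_sub, re_ofR, re_I_mul, im_ofR, neg_zero, sub_zero]
  have hdec : ∀ (c : K), ∀ x ∈ V, l (c • x) = re c * l x + im c * l ((I : K) • x) :=
    fun c x hx => by
    rw [← h3 _ _ hx, ← h3 _ _ (Vsmul _ _ hx), ← h2 _ (Vsmul _ _ hx) _ (Vsmul _ _ (Vsmul _ _ hx)),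
      smul_smul, ← add_smul, re_add_im]
  have fsmul : ∀ (c : K), ∀ x ∈ V, f (c • x) = c * f x := by
    intro c x hx
    simp only [f]
    rw [smul_smul, hdec c x hx, hdec (I * c) x hx, re_I_mul, mul_im, re_I]
    conv_rhs => rw [← re_add_im c]
    rcases I_cases (K := K) with hI | hI
    · simp only [im_of_I_eq_zero hI, hI, map_add, map_mul, map_zero]; ring
    · simp only [hI.2, map_add, map_mul, map_neg, map_zero, map_one]
      linear_combination (algebraMap R K (im c)) * (algebraMap R K (l ((I : K) • x))) * hI.1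
  have fle : ∀ x ∈ V, nm (f x) ≤ p x := fun x hx => by
    have h6 := h4 _ (Vsmul (rot (f x)) x hx)
    rwa [← hre, fsmul _ _ hx, rot_mul, re_ofR, psmul _ _ hx, nm_rot, one_mul] at h6
  refine ⟨f, by simp only [f]; fun_prop, fun x hx y hy => ?_, fsmul, fle, ?_⟩
  · simp only [f]
    rw [smul_add, h2 _ hx _ hy, h2 _ (Vsmul _ _ hx) _ (Vsmul _ _ hy), map_add, map_add]
    ring
  · rw [← h5, ← hre]
    exact (ofR_re_of_le (by rw [hre, h5]; exact fle _ hx₀)).symm

/-! ### The distance to a set -/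

section Dist

variable {E : Type*} [AddCommGroup E] [Nm E R] [NG R E] [Coded N E] [Tot N E] [DefSub N E]
  [DefNm N R E]

open Classical in
/-- the distance from `x` to `M` -/
noncomputable def idist (x : E) (M : Set E) : R :=
  if h : ∃ c, IsGLB ((fun m => nm (x - m)) '' M) c then h.choose else 0

theorem isGLB_idist (x : E) {M : Set E} (hM : Intl N M) (hne : M.Nonempty) :
    IsGLB ((fun m => nm (x - m)) '' M) (idist x M) := by
  have h : ∃ c, IsGLB ((fun m => nm (x - m)) '' M) c :=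
    RF.glb (N := N) _ (intl_image (by fun_prop) M) (hne.image _)
      ⟨0, by rintro _ ⟨m, -, rfl⟩; exact nm_nonneg _⟩
  rw [idist, dif_pos h]
  exact h.choose_spec

theorem idist_le (x : E) {M : Set E} (hM : Intl N M) {m : E} (hm : m ∈ M) :
    idist x M ≤ nm (x - m) := (isGLB_idist x hM ⟨m, hm⟩).1 ⟨m, hm, rfl⟩

theorem le_idist {x : E} {M : Set E} (hM : Intl N M) (hne : M.Nonempty) {r : R}
    (h : ∀ m ∈ M, r ≤ nm (x - m)) : r ≤ idist x M :=
  (isGLB_idist x hM hne).2 (by rintro _ ⟨m, hm, rfl⟩; exact h m hm)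

theorem idist_nonneg (x : E) {M : Set E} (hM : Intl N M) (hne : M.Nonempty) : 0 ≤ idist x M :=
  le_idist hM hne fun _ _ => nm_nonneg _

theorem exists_lt_of_idist_lt {x : E} {M : Set E} (hM : Intl N M) (hne : M.Nonempty) {r : R}
    (h : idist x M < r) : ∃ m ∈ M, nm (x - m) < r := by
  by_contra hc
  push Not at hc
  exact absurd (le_idist hM hne hc) (not_le.2 h)

theorem defF_idist {M : Set E} (hM : Intl N M) (hne : M.Nonempty) :
    DefF N (fun x : E => idist x M) :=
  defF_of_rel (R := fun (x : E) (r : R) => (∀ m ∈ M, r ≤ nm (x - m)) ∧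
      ∀ s : R, (∀ m ∈ M, s ≤ nm (x - m)) → s ≤ r)
    (fun _ _ => inferInstance) (by fun_prop) fun x r _ _ =>
      ⟨fun h => le_antisymm (h.2 _ fun _ => idist_le x hM) (le_idist hM hne h.1),
        fun h => h ▸ ⟨fun _ => idist_le x hM, fun _ => le_idist hM hne⟩⟩

end Dist

variable {E : Type*} [AddCommGroup E] [Module K E] [Nm E R] [NA R K E] [Coded N E] [NS N R K E]

/-- Hahn-Banach: a definable seminorm dominated by the norm. -/
theorem exists_dual_le (p : E → R) (hp : DefF N p) (add : ∀ x y, p (x + y) ≤ p x + p y)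
    (smul : ∀ (c : K) (x : E), p (c • x) = nm c * p x) (C : R) (bd : ∀ x, p x ≤ C * nm x)
    (x₀ : E) : ∃ u : Dual N K E, u x₀ = algebraMap R K (p x₀) ∧ ∀ x, nm (u x) ≤ p x := by
  obtain ⟨l, h1, h2, h3, h4, h5⟩ := hahn_banach_K (N := N) (K := K) (Set.univ : Set E)
    (fun _ _ _ _ => trivial) (fun _ _ _ => trivial) p hp (fun x _ y _ => add x y)
    (fun c x _ => smul c x) (Set.mem_univ x₀)
  obtain ⟨u, hu⟩ := exists_dual l h1 (fun x y => h2 x trivial y trivial) (fun c x => h3 c x trivial)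
    C fun x => (h4 x trivial).trans (bd x)
  exact ⟨u, (hu _).trans h5, fun x => hu x ▸ h4 x trivial⟩

variable (N K) in
theorem exists_dual_norming (x₀ : E) :
    ∃ u : Dual N K E, nm u ≤ 1 ∧ u x₀ = algebraMap R K (nm x₀) := by
  obtain ⟨u, h1, h2⟩ := exists_dual_le (N := N) (K := K) (fun x : E => nm x) (by fun_prop)
    nm_add_le nm_smul 1 (fun x => by rw [one_mul]) x₀
  exact ⟨u, Dual.opNorm_le zero_le_one fun x => by rw [one_mul]; exact h2 x, h1⟩

variable (N K) in
theorem exists_dual_norming' {x₀ : E} (h : x₀ ≠ 0) :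
    ∃ u : Dual N K E, nm u = 1 ∧ u x₀ = algebraMap R K (nm x₀) := by
  obtain ⟨u, h1, h2⟩ := exists_dual_norming N K x₀
  refine ⟨u, le_antisymm h1 ?_, h2⟩
  have h3 := u.le_opNorm x₀
  rw [h2, nm_ofR_of_nonneg (nm_nonneg _)] at h3
  exact le_of_mul_le_mul_right (by rwa [one_mul]) (nm_pos_iff.2 h)

variable (N K) in
theorem eq_zero_of_forall_dual {x : E} (h : ∀ u : Dual N K E, u x = 0) : x = 0 := by
  obtain ⟨u, -, h2⟩ := exists_dual_norming N K x
  rw [h u, ← map_zero (algebraMap R K)] at h2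
  exact nm_eq_zero.1 (ofR_inj h2).symm

theorem IsISub.idist_add {M : Set E} (hM : IsISub N K M) (x y : E) :
    idist (x + y) M ≤ idist x M + idist y M := by
  have hne : M.Nonempty := ⟨0, hM.zero⟩
  refine le_of_forall_pos_le_add fun ε hε => ?_
  obtain ⟨m, hm, h⟩ := exists_lt_of_idist_lt hM.intl hne
    (lt_add_of_pos_right (idist x M) (half_pos hε))
  obtain ⟨m', hm', h'⟩ := exists_lt_of_idist_lt hM.intl hne
    (lt_add_of_pos_right (idist y M) (half_pos hε))
  refine (idist_le _ hM.intl (hM.add m hm m' hm')).trans ?_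
  have := nm_add_le (x - m) (y - m')
  rw [← add_sub_add_comm] at this
  linarith

theorem IsISub.idist_smul {M : Set E} (hM : IsISub N K M) (c : K) (x : E) :
    idist (c • x) M = nm c * idist x M := by
  have hne : M.Nonempty := ⟨0, hM.zero⟩
  rcases eq_or_ne c 0 with rfl | h
  · rw [zero_smul, nm_zero, zero_mul]
    exact le_antisymm (by simpa using idist_le (0 : E) hM.intl hM.zero) (idist_nonneg _ hM.intl hne)
  have h0 := nm_pos_iff.2 h
  refine le_antisymm ?_ (le_idist hM.intl hne fun m hm => ?_)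
  · rw [← inv_mul_le_iff₀ h0]
    refine le_idist hM.intl hne fun m hm => ?_
    rw [inv_mul_le_iff₀ h0, ← nm_smul, smul_sub]
    exact idist_le _ hM.intl (hM.smul c m hm)
  · have := idist_le x hM.intl (hM.smul c⁻¹ m hm)
    rw [← le_inv_mul_iff₀ h0, ← nm_inv, ← nm_smul, smul_sub, inv_smul_smul₀ h]
    exact this

/-- A functional which vanishes on `M` and measures the distance of `x₀` to `M`. -/
theorem exists_dual_vanishing {M : Set E} (hM : IsISub N K M) (x₀ : E) :
    ∃ u : Dual N K E, nm u ≤ 1 ∧ (∀ m ∈ M, u m = 0) ∧ u x₀ = algebraMap R K (idist x₀ M) := by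
  have hne : M.Nonempty := ⟨0, hM.zero⟩
  have hbd : ∀ x : E, idist x M ≤ 1 * nm x := fun x => by
    simpa using idist_le x hM.intl hM.zero
  obtain ⟨u, h1, h2⟩ := exists_dual_le (N := N) (K := K) (fun x : E => idist x M)
    (defF_idist hM.intl hne) hM.idist_add hM.idist_smul 1 hbd x₀
  refine ⟨u, Dual.opNorm_le zero_le_one fun x => (h2 x).trans (hbd x), fun m hm => ?_, h1⟩
  exact nm_le_zero_iff.1 ((h2 m).trans (by simpa using idist_le m hM.intl hm))

/-- The same, for a lower bound of the distance. -/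
theorem exists_dual_vanishing_of_le {M : Set E} (hM : IsISub N K M) {x₀ : E} {δ : R}
    (h : ∀ m ∈ M, δ ≤ nm (x₀ - m)) :
    ∃ u : Dual N K E, nm u ≤ 1 ∧ (∀ m ∈ M, u m = 0) ∧ δ ≤ re (u x₀) ∧ im (u x₀) = 0 := by
  obtain ⟨u, h1, h2, h3⟩ := exists_dual_vanishing hM x₀
  exact ⟨u, h1, h2, by rw [h3, re_ofR]; exact le_idist hM.intl ⟨0, hM.zero⟩ h, by rw [h3, im_ofR]⟩

/-- A subspace which is not dense is annihilated by a functional of norm one. -/
theorem exists_dual_null {M : Set E} (hM : IsISub N K M) {x₀ : E} {δ : R} (hδ : 0 < δ)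
    (h : ∀ m ∈ M, δ ≤ nm (x₀ - m)) : ∃ u : Dual N K E, nm u = 1 ∧ ∀ m ∈ M, u m = 0 := by
  obtain ⟨u, -, h2, h3, -⟩ := exists_dual_vanishing_of_le hM h
  have h4 : u ≠ 0 := by
    rintro rfl
    rw [Dual.zero_apply, map_zero] at h3
    exact absurd h3 (not_le.2 hδ)
  exact ⟨_, nm_normalize (K := K) h4, fun m hm => by rw [Dual.smul_apply, h2 m hm, mul_zero]⟩

end Vale.Agent.P129B
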